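import Vale.Agent.P285.R5.H80.PbC

/-!
# P270: generalised abundance on projective bundles over hyperbolic manifolds and orbifolds

`Z` is a compact connected complex manifold of dimension `n ≥ 1` with a Kähler metric `w`,
`D_1 + ... + D_k` is a reduced divisor on `Z` with simple normal crossings,
`μ_i ∈ {2, 3, ..., ∞}` (`∞` is written `0`), and the orbifold `(Z, ∑ (1 - 1/μ_i) D_i)` is Brody
hyperbolic; for `k = 0` this says that `Z` contains no nonconstant entire curve.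
`π : X = P(L_0 ⊕ ... ⊕ L_r) → Z`, `r ≥ 1`, is the projective bundle of a direct sum of line bundles,
`H` the tautological line bundle, `B = (1/m) div s`, `s` a nonzero section of `H^e ⊗ π^*N`, is an
effective `ℚ`-divisor on `X` with `B ≥ ∑ (1 - 1/μ_i) π^*D_i` (no condition if `k = 0`) such that
`(X, B)` is log canonical and `m (r + 1) ≤ e` (i.e. `K_X + B` has degree `≥ 0` on the lines in the
fibres of `π`), and `M = H^f ⊗ π^*N'` is nef. Then `K_X + B + M` is nef and semiample, also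
equivariantly.
-/

open scoped Manifold ContDiff

noncomputable section

namespace Vale.Agent.Results.P270.BundleLogHyperbolic

open Vale.Agent.P272.K Vale.Agent.P285.H281.FD Vale.Agent.P285.H766.PB
open Vale.Agent.P285.LK (IsSNCDivisor OrbifoldBrody)
open Vale.Agent.P285.R5.H80.PB (PullGe)

theorem result (n r : ℕ) (hn : 1 ≤ n) (hr : 1 ≤ r) (Z : Type) [TopologicalSpace Z] [T2Space Z]
    [CompactSpace Z] [ConnectedSpace Z] [ChartedSpace (Cm n) Z] [IsManifold 𝓘(ℂ, Cm n) ω Z]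
    (w : Chart n Z → Cm n → Matrix (Fin n) (Fin n) ℂ) (hw : IsKahler w)
    (k : ℕ) (D : Fin k → Chart n Z → Cm n → ℂ) (ψ : Fin k → Chart n Z → Cm n → ℝ)
    (c : Fin k → Chart n Z → Cm n → Matrix (Fin n) (Fin n) ℂ) (hD : IsSNCDivisor D ψ c)
    (μ : Fin k → ℕ) (hμ : ∀ i, μ i ≠ 1) (hZ : OrbifoldBrody n Z D μ)
    (X : Type) [TopologicalSpace X] [T2Space X] [CompactSpace X] [ConnectedSpace X]
    [ChartedSpace (Cm (n + r)) X] [IsManifold 𝓘(ℂ, Cm (n + r)) ω X]
    (w' : Chart (n + r) X → Cm (n + r) → Matrix (Fin (n + r)) (Fin (n + r)) ℂ) (hw' : IsKahler w')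
    (L : Fin (r + 1) → Bd Z) (hL : ∀ j, IsLB n (L j)) (π : X → Z) (H : Bd X)
    (hH : IsLB (n + r) H) (t : (j : Fin (r + 1)) → H.ι → (L j).ι → X → ℂ)
    (hX : IsPB n r L π H t) (N : Bd Z) (hN : IsLB n N) (e : ℕ) (s : H.ι × N.ι → X → ℂ)
    (hs : IsSec (n + r) ((H.pow e).mul (pull π N)) s)
    (h0 : ∃ x, NZ ((H.pow e).mul (pull π N)) s x) (m : ℕ) (hm : 1 ≤ m)
    (hk : Lc (n + r) m ((H.pow e).mul (pull π N)) s) (he : m * (r + 1) ≤ e)
    (K : Fin k → ℕ) (hK : ∀ i, (m : ℝ) * (1 - (μ i : ℝ)⁻¹) ≤ K i)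
    (hd : PullGe n (n + r) π ((H.pow e).mul (pull π N)) s D K)
    (f : ℕ) (N' : Bd Z) (hN' : IsLB n N') (hM : Nef w' ((H.pow f).mul (pull π N'))) :
    Nef w' (((Bd.can (n + r) X).pow m).mul (((H.pow e).mul (pull π N)).mul
      (((H.pow f).mul (pull π N')).pow m))) ∧
    Semiample (n + r) (((Bd.can (n + r) X).pow m).mul (((H.pow e).mul (pull π N)).mul
      (((H.pow f).mul (pull π N')).pow m))) ∧
    EqSemiample (n + r) (((Bd.can (n + r) X).pow m).mul (((H.pow e).mul (pull π N)).mul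
      (((H.pow f).mul (pull π N')).pow m))) :=
  Vale.Agent.P285.R5.H80.PB.p270_bundle hn hr hw hD hμ hZ hw'.toIsHermitian hL hN hH hX hm he hs h0
    hk hK hd hN' hM

end Vale.Agent.Results.P270.BundleLogHyperbolic
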