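import Vale.Agent.P285.R2.H391.Fin4

/-!
# P270: generalised abundance for log canonical pairs which dominate a hyperbolic orbifold

`X` is a compact connected complex manifold of dimension `n ≥ 1` with a Kähler metric `w`,
`D_1 + ... + D_k` is a reduced divisor with simple normal crossings, `μ_i ∈ {2, 3, ..., ∞}` (`∞` is
written `0`), and the orbifold `(X, ∑ (1 - 1/μ_i) D_i)` is Brody hyperbolic; for `k = 0` this says
that `X` contains no nonconstant entire curve. `B = (1/m) div t` is an effective `ℚ`-divisor with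
`B ≥ ∑ (1 - 1/μ_i) D_i` such that `(X, B)` is log canonical, `t` is a section of the line bundle `L`,
and `M` is any nef line bundle. Then `K_X + B + M` is positive and ample, hence semiample, also
equivariantly for finite group actions. Neither nefness of `K_X + B + M` nor pseudo-effectivity of
`K_X + B` is assumed.
-/

open scoped Manifold ContDiff

noncomputable section

namespace Vale.Agent.Results.P270.GeneralisedAbundanceHyperbolic

open Vale.Agent.P272.K Vale.Agent.P285.H281.FD
open Vale.Agent.P285.LK (IsSNCDivisor OrbifoldBrody)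
open Vale.Agent.P285.R2.H391 (DivGe)
open Vale.Agent.P285.R2.H80 (Positive Ample)

theorem result (n : ℕ) (hn : 1 ≤ n) (X : Type) [TopologicalSpace X] [T2Space X] [CompactSpace X]
    [ConnectedSpace X] [ChartedSpace (Cm n) X] [IsManifold 𝓘(ℂ, Cm n) ω X]
    (w : Chart n X → Cm n → Matrix (Fin n) (Fin n) ℂ) (hw : IsKahler w)
    (k : ℕ) (s : Fin k → Chart n X → Cm n → ℂ) (ψ : Fin k → Chart n X → Cm n → ℝ)
    (c : Fin k → Chart n X → Cm n → Matrix (Fin n) (Fin n) ℂ) (hS : IsSNCDivisor s ψ c)
    (μ : Fin k → ℕ) (hμ : ∀ i, μ i ≠ 1) (hX : OrbifoldBrody n X s μ)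
    (L : Bd X) (hL : IsLB n L) (t : L.ι → X → ℂ) (ht : IsSec n L t) (h0 : ∃ x, NZ L t x)
    (m : ℕ) (hm : 1 ≤ m) (hk : Lc n m L t)
    (N : Fin k → ℕ) (hN : ∀ i, (m : ℝ) * (1 - (μ i : ℝ)⁻¹) ≤ N i) (hd : DivGe n L t s N)
    (M : Bd X) (hM : IsLB n M) (hNM : Nef w M) :
    Positive n (((Bd.can n X).pow m).mul (L.mul (M.pow m))) ∧
      Ample n (((Bd.can n X).pow m).mul (L.mul (M.pow m))) ∧
      Semiample n (((Bd.can n X).pow m).mul (L.mul (M.pow m))) ∧
      EqSemiample n (((Bd.can n X).pow m).mul (L.mul (M.pow m))) :=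
  Vale.Agent.P285.R2.H391.p270_orb hn hw hS hμ hX hL ht h0 hm hk hN hd hM hNM

end Vale.Agent.Results.P270.GeneralisedAbundanceHyperbolic
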