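import Vale.Agent.P285.R8.H80.Fin

/-!
# P270: log canonical pairs over hyperbolic orbifolds

`X` is a compact connected complex manifold of dimension `n ≥ 1` with a Kähler metric `w`,
`f : X → Z` is a surjective holomorphic submersion onto a compact Kähler manifold `Z` of dimension
`p` (for instance `f = id`), and `G : Z → Y` is a holomorphic map to a compact complex manifold `Y`.
`E_1, ..., E_l` are effective divisors on `Y` and `μ_i ≥ 1` divides `(G f)^*E_i`; every entire curve
in `Y` with image in `G(Z)`, which for each `i` lies in `E_i` or has all its multiplicities along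
`E_i` divisible by `μ_i`, is constant. For `l = 0` this says that `G(Z)` contains no nonconstant
entire curve.

`t` is a nonzero section of a line bundle `D` on `X`, `(X, B)`, `B = (1/q) div t`, is log
canonical, `M` is a nef line bundle on `X`, and
`L = K_X^q ⊗ D ⊗ M = O(q (K_X + B) + M)`.

1. If `L` is nef relative to `G f` (for each `ε > 0` some metric of `L` has the curvature form `θ`
with `θ + C (G f)^*h + ε w ≥ 0`, `h` a Hermitian metric of `Y`, for some `C`), then `L` is nef,
`ν(L) ≥ dim G(Z)`, and for every Kähler form `h` on `Y` there is a `c > 0` such that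
`L - c (G f)^*h` is nef. If, moreover, some power `L^k` is isomorphic to `f^*N`, where the line
bundle `N` on `Z` is big relative to `G` (`N^k' = A ⊗ E`, `A` positive relative to `G`, `E`
effective), then `κ(L) = ν(L) = p`.
2. Suppose that some power `L^k` is isomorphic to `f^*N`, where the line bundle `N` on `Z` is
positive relative to `G`: some metric of `N` has the curvature form `θ` with `θ + C G^*h > 0`, `h` a
Hermitian metric of `Y`. Then `N` is positive and ample, `L` is nef and semiample, also
equivariantly for finite group actions, and `κ(L) = ν(L) = p`. Nefness of `L` is not assumed. For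
`f = id` (`Z = X`) this says: if `L` is positive relative to a map to a space without entire curves,
then `L` is ample.
-/

open scoped Manifold ContDiff

noncomputable section

namespace Vale.Agent.Results.P270.HyperbolicFamilies

open Vale.Agent.P272.K Vale.Agent.P285.H281.FD
open Vale.Agent.P285.H766.PB (pull)
open Vale.Agent.P285.R2.H80 (Positive Ample)
open Vale.Agent.P285.R5.H391 (IsSubm RelPositive Abundant)
open Vale.Agent.P285.R6.H391 (Isomorphic)
open Vale.Agent.P285.R6.H80 (ToOrbHyp)
open Vale.Agent.P285.R7.H80 (RankGE NumDimGE RelNef NefOver)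
open Vale.Agent.P285.R8.H626 (RelBig)
open Vale.Agent.P285.H716.AB (Kod NumDim)

theorem result (n p m l : ℕ) (hn : 1 ≤ n) (X Z Y : Type) [TopologicalSpace X] [T2Space X]
    [CompactSpace X] [ConnectedSpace X] [ChartedSpace (Cm n) X] [IsManifold 𝓘(ℂ, Cm n) ω X]
    [TopologicalSpace Z] [T2Space Z] [CompactSpace Z] [ChartedSpace (Cm p) Z]
    [IsManifold 𝓘(ℂ, Cm p) ω Z] [TopologicalSpace Y] [T2Space Y] [CompactSpace Y]
    [ChartedSpace (Cm m) Y] [IsManifold 𝓘(ℂ, Cm m) ω Y]
    (w : Chart n X → Cm n → Matrix (Fin n) (Fin n) ℂ) (hw : IsKahler w)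
    (v : Chart p Z → Cm p → Matrix (Fin p) (Fin p) ℂ) (hv : IsKahler v)
    (f : X → Z) (hf : IsSubm n p f) (G : Z → Y) (hG : ContMDiff 𝓘(ℂ, Cm p) 𝓘(ℂ, Cm m) ω G)
    (s : Fin l → Chart m Y → Cm m → ℂ) (μ : Fin l → ℕ)
    (hY : ToOrbHyp n m (fun x => G (f x)) s μ)
    (D : Bd X) (hD : IsLB n D) (t : D.ι → X → ℂ) (ht : IsSec n D t) (h0 : ∃ x, NZ D t x)
    (q : ℕ) (hq : 1 ≤ q) (hlc : Lc n q D t) (M : Bd X) (hM : IsLB n M) (hNM : Nef w M) :
    (RelNef m w (((Bd.can n X).pow q).mul (D.mul M)) (fun x => G (f x)) →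
      Nef w (((Bd.can n X).pow q).mul (D.mul M)) ∧
      NefOver m w (((Bd.can n X).pow q).mul (D.mul M)) (fun x => G (f x)) ∧
      (∀ r : ℕ, RankGE n m (fun x => G (f x)) r →
        NumDimGE w (((Bd.can n X).pow q).mul (D.mul M)) r) ∧
      ∀ (k : ℕ) (N : Bd Z), 1 ≤ k → IsLB p N →
        Isomorphic n ((((Bd.can n X).pow q).mul (D.mul M)).pow k) (pull f N) → RelBig p m N G →
        Kod n (((Bd.can n X).pow q).mul (D.mul M)) p ∧
        NumDim w (((Bd.can n X).pow q).mul (D.mul M)) p) ∧
    ∀ (k : ℕ) (N : Bd Z), 1 ≤ k → IsLB p N →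
      Isomorphic n ((((Bd.can n X).pow q).mul (D.mul M)).pow k) (pull f N) →
      RelPositive p m N G →
      Positive p N ∧ Ample p N ∧ Abundant w (((Bd.can n X).pow q).mul (D.mul M)) p :=
  Vale.Agent.P285.R8.H80.final hn hw hv hf hG hY hD ht h0 hq hlc hM hNM

end Vale.Agent.Results.P270.HyperbolicFamilies
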